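import Vale.Agent.P297.H572.Half.Tsen
import Mathlib.Algebra.Polynomial.SpecificDegree
import Vale.Agent.P297.H124.Y1

/-!
Divisibility by two of the classes of degree zero for ramified quadratic extensions.
-/

set_option linter.unusedSectionVars false
set_option linter.style.haveILetI false

open IntermediateField Polynomial

namespace Vale.Agent.P297.H572.Half

open Vale.Agent.P297 Vale.Agent.P297.H124

/-- Divisibility by two of the classes of degree zero on the curve with function field `E`. -/
def HalfProp (E : Type) [Field E] [Algebra ℂ E] [IsFF ℂ E] : Prop :=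
  ∀ (Q : Type) [AddCommGroup Q] (A : (PlaceOver ℂ E →₀ ℤ) →+ Q), (∀ F : E, A (div ℂ F) = 0) →
    (∀ w w' : PlaceOver ℂ E, (2 : ℤ) • A (Finsupp.single w 1) =
      (2 : ℤ) • A (Finsupp.single w' 1)) →
    ∀ w w' : PlaceOver ℂ E, A (Finsupp.single w 1) = A (Finsupp.single w' 1)

/-- The base of the induction: double covers of the line. -/
theorem halfProp_base {E : Type} [Field E] [Algebra ℂ E] [IsFF ℂ E] {t θ : E}
    (ht : Transcendental ℂ t) (q : ℂ[X]) (hq : Squarefree q)
    (hθ : θ ^ 2 = aeval t q) (hθK : θ ∉ ℂ⟮t⟯)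
    (hspan : ∀ x : E, ∃ a ∈ ℂ⟮t⟯, ∃ b ∈ ℂ⟮t⟯, x = a + b * θ) : HalfProp E := by
  intro Q _ A hdiv htwo w w'
  refine half_const ht q hq hθ hθK hspan A hdiv (fun w w' => ?_) w w'
  have h := htwo w w'
  rwa [two_smul, two_smul] at h

section

variable {K E : Type} [Field K] [Field E]
  [Algebra ℂ K] [Algebra ℂ E] [Algebra K E] [IsScalarTower ℂ K E] [IsFF ℂ K] [IsFF ℂ E]
  [FiniteDimensional K E]

/-- the fibres of the restriction of places are not empty -/
theorem exists_over (v : PlaceOver ℂ K) : ∃ w : PlaceOver ℂ E, restrictPlace K w = v := by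
  by_contra hcon
  push Not at hcon
  have h1 := sum_ram (E := E) v
  haveI : IsEmpty {w : PlaceOver ℂ E // restrictPlace K w = v} := ⟨fun w => hcon w.1 w.2⟩
  rw [finsum_of_isEmpty] at h1
  have h2 : 0 < Module.finrank K E := Module.finrank_pos
  omega

/-- The pull-back of a place for an extension of degree two. -/
theorem pull_two (hfr : Module.finrank K E = 2) (x : PlaceOver ℂ E) :
    (ram K x = 2 ∧ pull K E (Finsupp.single (restrictPlace K x) 1) = Finsupp.single x 2) ∨
    (ram K x = 1 ∧ ∃ x' : PlaceOver ℂ E, x' ≠ x ∧ restrictPlace K x' = restrictPlace K x ∧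
      pull K E (Finsupp.single (restrictPlace K x) 1) = Finsupp.single x 1 + Finsupp.single x' 1)
    := by
  classical
  have hdeg := deg_pull_single (E := E) (restrictPlace K x)
  rw [hfr] at hdeg
  obtain ⟨z, hz⟩ : ∃ z, z = pull K E (Finsupp.single (restrictPlace K x) 1) := ⟨_, rfl⟩
  have hzw : ∀ w, z w = if restrictPlace K w = restrictPlace K x then ram K w else 0 := by
    intro w
    rw [hz, pull_apply, Finsupp.single_apply]
    by_cases h : restrictPlace K w = restrictPlace K x
    · rw [if_pos h, if_pos h.symm, mul_one]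
    · rw [if_neg h, if_neg (Ne.symm h), mul_zero]
  have hz0 : ∀ w, 0 ≤ z w := by
    intro w
    rw [hzw]
    split_ifs
    · exact (ram_pos w).le
    · exact le_rfl
  have hdz : deg z = ∑ w ∈ z.support, z w := by
    conv_lhs => rw [← Finsupp.sum_single z]
    rw [Finsupp.sum, map_sum]
    exact Finset.sum_congr rfl fun w _ => deg_single _ _
  rw [← hz] at hdeg ⊢
  rw [hdz] at hdeg
  have hzx : z x = ram K x := by rw [hzw, if_pos rfl]
  have hx : x ∈ z.support := by
    rw [Finsupp.mem_support_iff, hzx]
    exact (ram_pos x).ne'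
  rw [← Finset.add_sum_erase _ _ hx] at hdeg
  have hrx := ram_pos (K := K) x
  by_cases he : (z.support.erase x) = ∅
  · left
    rw [he, Finset.sum_empty, add_zero, hzx] at hdeg
    have h2 : ram K x = 2 := by exact_mod_cast hdeg
    refine ⟨h2, ?_⟩
    ext w
    rw [Finsupp.single_apply]
    by_cases hw : x = w
    · rw [if_pos hw, ← hw, hzx, h2]
    · rw [if_neg hw]
      by_contra hne
      have : w ∈ z.support.erase x := Finset.mem_erase.2 ⟨Ne.symm hw, Finsupp.mem_support_iff.2 hne⟩
      rw [he] at this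
      exact absurd this (Finset.notMem_empty w)
  · right
    obtain ⟨x', hx'⟩ := Finset.nonempty_iff_ne_empty.2 he
    have hx'1 := Finset.mem_erase.1 hx'
    rw [← Finset.add_sum_erase _ _ hx'] at hdeg
    have hres : restrictPlace K x' = restrictPlace K x := by
      by_contra hne
      have h3 := Finsupp.mem_support_iff.1 hx'1.2
      rw [hzw, if_neg hne] at h3
      exact h3 rfl
    have hzx' : z x' = ram K x' := by rw [hzw, if_pos hres]
    have hrx' := ram_pos (K := K) x'
    have hnn : 0 ≤ ∑ w ∈ (z.support.erase x).erase x', z w :=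
      Finset.sum_nonneg fun w _ => hz0 w
    rw [hzx, hzx'] at hdeg
    push_cast at hdeg
    have h1 : ram K x = 1 := by omega
    have h1' : ram K x' = 1 := by omega
    have hs0 : ∑ w ∈ (z.support.erase x).erase x', z w = 0 := by omega
    refine ⟨h1, x', hx'1.1, hres, ?_⟩
    ext w
    rw [Finsupp.add_apply, Finsupp.single_apply, Finsupp.single_apply]
    by_cases hw : x = w
    · rw [if_pos hw, ← hw, hzx, h1, if_neg hx'1.1, add_zero]
    · rw [if_neg hw, zero_add]
      by_cases hw' : x' = w
      · rw [if_pos hw', ← hw', hzx', h1']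
      · rw [if_neg hw']
        by_contra hne
        have hmem : w ∈ (z.support.erase x).erase x' :=
          Finset.mem_erase.2 ⟨Ne.symm hw', Finset.mem_erase.2 ⟨Ne.symm hw,
            Finsupp.mem_support_iff.2 hne⟩⟩
        have h5 := (Finset.sum_eq_zero_iff_of_nonneg (fun w _ => hz0 w)).1 hs0 w hmem
        exact hne h5

/-- The classes of the pull-backs of places agree. -/
theorem pull_const (hK : HalfProp K) {Q : Type} [AddCommGroup Q]
    (A : (PlaceOver ℂ E →₀ ℤ) →+ Q) (hdiv : ∀ F : E, A (div ℂ F) = 0)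
    (htwo : ∀ w w' : PlaceOver ℂ E, (2 : ℤ) • A (Finsupp.single w 1) =
      (2 : ℤ) • A (Finsupp.single w' 1)) (v v' : PlaceOver ℂ K) :
    A (pull K E (Finsupp.single v 1)) = A (pull K E (Finsupp.single v' 1)) := by
  obtain ⟨x₀, -⟩ := exists_over (E := E) v
  have htwo' : ∀ z : PlaceOver ℂ E →₀ ℤ, (2 : ℤ) • A z = deg z • ((2 : ℤ) • A (Finsupp.single x₀ 1)) :=
    fun z => eq_deg_smul ((DistribSMul.toAddMonoidHom Q (2 : ℤ)).comp A) _ z
      (fun w _ => htwo w x₀)
  exact hK Q (A.comp (pull K E)) (fun F => by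
    rw [AddMonoidHom.comp_apply, pull_div, hdiv]) (fun v v' => by
    rw [AddMonoidHom.comp_apply, AddMonoidHom.comp_apply, htwo' (pull K E (Finsupp.single v 1)),
      htwo' (pull K E (Finsupp.single v' 1)), deg_pull_single, deg_pull_single]) v v'

/-- The sum of the classes of the two places of a fibre, for an extension of degree two. -/
theorem pair_const (hfr : Module.finrank K E = 2) (hK : HalfProp K) {Q : Type} [AddCommGroup Q]
    (A : (PlaceOver ℂ E →₀ ℤ) →+ Q) (hdiv : ∀ F : E, A (div ℂ F) = 0)
    (htwo : ∀ w w' : PlaceOver ℂ E, (2 : ℤ) • A (Finsupp.single w 1) =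
      (2 : ℤ) • A (Finsupp.single w' 1)) :
    ∃ c : Q, (∀ v : PlaceOver ℂ K, A (pull K E (Finsupp.single v 1)) = c) ∧
      (∀ x x' : PlaceOver ℂ E, x' ≠ x → restrictPlace K x' = restrictPlace K x →
        A (Finsupp.single x 1) + A (Finsupp.single x' 1) = c) ∧
      (∀ x : PlaceOver ℂ E, (∀ x' : PlaceOver ℂ E, restrictPlace K x' = restrictPlace K x →
        A (Finsupp.single x' 1) = A (Finsupp.single x 1)) →
        A (Finsupp.single x 1) + A (Finsupp.single x 1) = c) := by
  classical
  obtain ⟨v₀⟩ : Nonempty (PlaceOver ℂ K) := by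
    obtain ⟨t, ht⟩ := IsFF.exists_transcendental (k := ℂ) (E := K)
    obtain ⟨w, -⟩ := exists_zero_place ht
    exact ⟨w⟩
  refine ⟨A (pull K E (Finsupp.single v₀ 1)), fun v => pull_const hK A hdiv htwo v v₀, ?_, ?_⟩
  · intro x y hne hxy
    rw [pull_const hK A hdiv htwo v₀ (restrictPlace K x)]
    have hy0 : pull K E (Finsupp.single (restrictPlace K x) 1) y ≠ 0 := by
      rw [pull_apply, hxy, Finsupp.single_eq_same, mul_one]
      exact (ram_pos y).ne'
    rcases pull_two hfr x with ⟨-, h⟩ | ⟨-, x', hx'x, -, h⟩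
    · exfalso
      rw [h, Finsupp.single_apply, if_neg (Ne.symm hne)] at hy0
      exact hy0 rfl
    · have hyx' : y = x' := by
        by_contra hne'
        rw [h, Finsupp.add_apply, Finsupp.single_apply, Finsupp.single_apply,
          if_neg (Ne.symm hne), if_neg (Ne.symm hne')] at hy0
        exact hy0 rfl
      rw [hyx', h, map_add]
  · intro x hx
    rw [pull_const hK A hdiv htwo v₀ (restrictPlace K x)]
    rcases pull_two hfr x with ⟨-, h⟩ | ⟨-, x', hx'x, hr, h⟩
    · have h3 : Finsupp.single x (2 : ℤ) = Finsupp.single x 1 + Finsupp.single x 1 := by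
        rw [← Finsupp.single_add]
        norm_num
      rw [h, h3, map_add]
    · rw [h, map_add, hx x' hr]

/-- **The step** for a quadratic extension, with one fibre on which the classes agree. -/
theorem const_of_norm (hfr : Module.finrank K E = 2) (τ : E ≃ₐ[K] E)
    (hnorm : ∀ h : K, h ≠ 0 → ∃ F : E, F ≠ 0 ∧ F * τ F = algebraMap K E h)
    (hK : HalfProp K) {Q : Type} [AddCommGroup Q]
    (A : (PlaceOver ℂ E →₀ ℤ) →+ Q) (hdiv : ∀ F : E, A (div ℂ F) = 0)
    (htwo : ∀ w w' : PlaceOver ℂ E, (2 : ℤ) • A (Finsupp.single w 1) =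
      (2 : ℤ) • A (Finsupp.single w' 1)) (x₀ : PlaceOver ℂ E)
    (hx₀ : ∀ x' : PlaceOver ℂ E, restrictPlace K x' = restrictPlace K x₀ →
        A (Finsupp.single x' 1) = A (Finsupp.single x₀ 1)) (w w' : PlaceOver ℂ E) :
    A (Finsupp.single w 1) = A (Finsupp.single w' 1) := by
  classical
  obtain ⟨c, -, hc1, hc2⟩ := pair_const hfr hK A hdiv htwo
  have hcx := hc2 x₀ hx₀
  have hfib : ∀ x x' : PlaceOver ℂ E, restrictPlace K x' = restrictPlace K x →
      A (Finsupp.single x' 1) = A (Finsupp.single x 1) := by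
    intro x y hxy
    by_cases hne : y = x
    · rw [hne]
    have h2 := hc1 x y hne hxy
    rw [← hcx] at h2
    have h3 := htwo x x₀
    rw [two_smul, two_smul] at h3
    rw [← h3] at h2
    exact add_left_cancel h2
  -- the classes of the places of the subfield
  choose g hg using fun v : PlaceOver ℂ K => exists_over (E := E) v
  let B : (PlaceOver ℂ K →₀ ℤ) →+ Q := A.comp (Finsupp.mapDomain.addMonoidHom g)
  have hBs : ∀ v n, B (Finsupp.single v n) = A (Finsupp.single (g v) n) := by
    intro v n
    change A (Finsupp.mapDomain g (Finsupp.single v n)) = _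
    rw [Finsupp.mapDomain_single]
  have hAB : ∀ z : PlaceOver ℂ E →₀ ℤ, A z = B (Finsupp.mapDomain (restrictPlace K) z) := by
    intro z
    induction z using Finsupp.induction_linear with
    | zero => rw [Finsupp.mapDomain_zero, map_zero, map_zero]
    | add x y hx hy => rw [Finsupp.mapDomain_add, map_add, map_add, hx, hy]
    | single x n =>
      rw [Finsupp.mapDomain_single, hBs]
      have h2 := hfib x (g (restrictPlace K x)) (hg _)
      have h3 : ∀ y : PlaceOver ℂ E, A (Finsupp.single y n) = n • A (Finsupp.single y 1) := by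
        intro y
        rw [← map_zsmul, Finsupp.smul_single, smul_eq_mul, mul_one]
      rw [h3, h3, h2]
  have hBdiv : ∀ h : K, B (div ℂ h) = 0 := by
    intro h
    by_cases h0 : h = 0
    · have h2 : div ℂ h = 0 := by
        ext s
        rw [div_apply, h0, Place.ord_zero, Finsupp.coe_zero, Pi.zero_apply]
      rw [h2, map_zero]
    obtain ⟨F, hF0, hF⟩ := hnorm h h0
    have hnn : Algebra.norm K F * Algebra.norm K F = h ^ 2 := by
      have h2 := congrArg (Algebra.norm K) hF
      rw [map_mul, Algebra.norm_eq_of_algEquiv τ F, Algebra.norm_algebraMap, hfr] at h2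
      exact h2
    have hdn : div ℂ (Algebra.norm K F) = div ℂ h := by
      have h2 : (Algebra.norm K F - h) * (Algebra.norm K F + h) = 0 := by
        linear_combination hnn
      rcases mul_eq_zero.1 h2 with h3 | h3
      · rw [sub_eq_zero.1 h3]
      · rw [eq_neg_of_add_eq_zero_left h3]
        ext s
        rw [div_apply, div_apply, Place.ord_neg]
    rw [← hdn, ← mapDomain_restrict hF0, ← hAB, hdiv]
  have hB := hK Q B hBdiv (fun v v' => by
    rw [hBs, hBs]
    exact htwo _ _)
  have h4 := hB (restrictPlace K w) (restrictPlace K w')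
  rw [hAB, hAB, Finsupp.mapDomain_single, Finsupp.mapDomain_single]
  exact h4

/-- The data of a quadratic extension. -/
structure QuadExt (K : Type) {E : Type} [Field K] [Field E] [Algebra K E] (β : K) (θ : E) :
    Prop where
  sq : θ ^ 2 = algebraMap K E β
  nm : ∀ c : K, algebraMap K E c ≠ θ
  span : ∀ x : E, ∃ c d : K, x = algebraMap K E c + algebraMap K E d * θ

namespace QuadExt

variable {β : K} {θ : E} (h : QuadExt K β θ)

include h

theorem ne_zero : θ ≠ 0 := fun h0 => h.nm 0 (by rw [map_zero, h0])

theorem indep {c d : K} (h0 : algebraMap K E c + algebraMap K E d * θ = 0) : c = 0 ∧ d = 0 := by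
  have hd : d = 0 := by
    by_contra hd
    apply h.nm (-c / d)
    have hd' : algebraMap K E d ≠ 0 := by simpa using hd
    rw [map_div₀, map_neg, div_eq_iff hd']
    linear_combination -h0
  refine ⟨?_, hd⟩
  rw [hd, map_zero, zero_mul, add_zero] at h0
  simpa using h0

theorem uniq {c d c' d' : K} (h0 : algebraMap K E c + algebraMap K E d * θ =
    algebraMap K E c' + algebraMap K E d' * θ) : c = c' ∧ d = d' := by
  obtain ⟨h1, h2⟩ := h.indep (c := c - c') (d := d - d') (by
    rw [map_sub, map_sub]
    linear_combination h0)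
  exact ⟨sub_eq_zero.1 h1, sub_eq_zero.1 h2⟩

theorem finrank_eq : Module.finrank K E = 2 := by
  have hli : LinearIndependent K ![(1 : E), θ] := by
    rw [LinearIndependent.pair_iff]
    intro s t hst
    apply h.indep
    rw [Algebra.smul_def, Algebra.smul_def, mul_one] at hst
    exact hst
  have hsp : ⊤ ≤ Submodule.span K (Set.range ![(1 : E), θ]) := by
    intro x _
    obtain ⟨a, b, rfl⟩ := h.span x
    refine Submodule.add_mem _ ?_ ?_
    · have h1 : algebraMap K E a = a • (1 : E) := by
        rw [Algebra.smul_def, mul_one]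
      rw [h1]
      exact Submodule.smul_mem _ _ (Submodule.subset_span ⟨0, rfl⟩)
    · have h1 : algebraMap K E b * θ = b • θ := by
        rw [Algebra.smul_def]
      rw [h1]
      exact Submodule.smul_mem _ _ (Submodule.subset_span ⟨1, rfl⟩)
  rw [Module.finrank_eq_card_basis (Module.Basis.mk hli hsp), Fintype.card_fin]

/-- the conjugation -/
theorem exists_conj : ∃ τ : E ≃ₐ[K] E, τ θ = -θ ∧ ∀ x, τ (τ x) = x := by
  choose a b hab using h.span
  have key : ∀ p q : K, algebraMap K E (a (algebraMap K E p + algebraMap K E q * θ)) -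
      algebraMap K E (b (algebraMap K E p + algebraMap K E q * θ)) * θ =
        algebraMap K E p - algebraMap K E q * θ := by
    intro p q
    obtain ⟨h1, h2⟩ := h.uniq (hab (algebraMap K E p + algebraMap K E q * θ))
    rw [← h1, ← h2]
  let T : E →ₐ[K] E :=
    { toFun := fun x => algebraMap K E (a x) - algebraMap K E (b x) * θ
      map_one' := by
        have := key 1 0
        simpa using this
      map_zero' := by
        have := key 0 0
        simpa using this
      map_mul' := by
        intro x x'
        have h1 : x * x' = algebraMap K E (a x * a x' + b x * b x' * β) +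
          algebraMap K E (a x * b x' + b x * a x') * θ := by
          conv_lhs => rw [hab x, hab x']
          simp only [map_add, map_mul, ← h.sq]
          ring
        conv_lhs => rw [h1, key]
        simp only [map_add, map_mul, ← h.sq]
        ring
      map_add' := by
        intro x x'
        have h1 : x + x' = algebraMap K E (a x + a x') + algebraMap K E (b x + b x') * θ := by
          conv_lhs => rw [hab x, hab x']
          simp only [map_add]
          ring
        conv_lhs => rw [h1, key]
        simp only [map_add]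
        ring
      commutes' := by
        intro c
        have := key c 0
        simpa using this }
  have hTT : ∀ x, T (T x) = x := by
    intro x
    have h1 : T x = algebraMap K E (a x) + algebraMap K E (-b x) * θ := by
      change algebraMap K E (a x) - algebraMap K E (b x) * θ = _
      rw [map_neg]
      ring
    have h2 := key (a x) (-b x)
    rw [← h1] at h2
    change algebraMap K E (a (T x)) - algebraMap K E (b (T x)) * θ = x
    rw [h2, map_neg]
    conv_rhs => rw [hab x]
    ring
  refine ⟨AlgEquiv.ofAlgHom T T (AlgHom.ext hTT) (AlgHom.ext hTT), ?_, hTT⟩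
  change algebraMap K E (a θ) - algebraMap K E (b θ) * θ = -θ
  have := key 0 1
  simpa using this

end QuadExt

/-- **Tsen**: every element of the subfield is a norm. -/
theorem QuadExt.exists_norm {β : K} {θ : E} (h : QuadExt K β θ) (τ : E ≃ₐ[K] E) (hτ : τ θ = -θ)
    (c : K) (hc : c ≠ 0) : ∃ F : E, F ≠ 0 ∧ F * τ F = algebraMap K E c := by
  obtain ⟨x, hx0, hx⟩ := tsen (E := K) ![1, -β, -c]
  rw [Fin.sum_univ_three] at hx
  simp only [Matrix.cons_val_zero, Matrix.cons_val_one, Matrix.cons_val] at hx
  have hxK : x 0 ^ 2 - β * x 1 ^ 2 = c * x 2 ^ 2 := by linear_combination hx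
  have hprod : (algebraMap K E (x 0) + algebraMap K E (x 1) * θ) *
      (algebraMap K E (x 0) + algebraMap K E (-x 1) * θ) = algebraMap K E (c * x 2 ^ 2) := by
    rw [← hxK]
    simp only [map_sub, map_mul, map_pow, map_neg, ← h.sq]
    ring
  have hx2 : x 2 ≠ 0 := by
    intro h2
    rw [h2] at hprod
    have h3 : algebraMap K E (c * 0 ^ 2) = 0 := by simp
    rw [h3] at hprod
    apply hx0
    have h01 : x 0 = 0 ∧ x 1 = 0 := by
      rcases mul_eq_zero.1 hprod with h4 | h4
      · exact h.indep h4
      · obtain ⟨h5, h6⟩ := h.indep h4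
        exact ⟨h5, neg_eq_zero.1 h6⟩
    funext i
    fin_cases i
    · exact h01.1
    · exact h01.2
    · exact h2
  have hx2E : algebraMap K E (x 2) ≠ 0 := by simpa using hx2
  have hcE : algebraMap K E (c * x 2 ^ 2) ≠ 0 := by
    simpa using mul_ne_zero hc (pow_ne_zero 2 hx2)
  rw [← hprod] at hcE
  refine ⟨(algebraMap K E (x 0) + algebraMap K E (x 1) * θ) / algebraMap K E (x 2),
    div_ne_zero (left_ne_zero_of_mul hcE) hx2E, ?_⟩
  rw [map_div₀, map_add, map_mul, AlgEquiv.commutes, AlgEquiv.commutes, AlgEquiv.commutes, hτ]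
  have h5 : (algebraMap K E (x 0) + algebraMap K E (x 1) * θ) *
      (algebraMap K E (x 0) + algebraMap K E (x 1) * -θ) = algebraMap K E c *
        algebraMap K E (x 2) ^ 2 := by
    rw [← map_pow, ← map_mul, ← hprod, map_neg]
    ring
  rw [div_mul_div_comm, h5, ← pow_two, mul_div_cancel_right₀ _ (pow_ne_zero 2 hx2E)]

/-- **[HT']** For a quadratic extension of a field with `HalfProp`: if the classes of the places
agree on one fibre then all the classes agree. -/
theorem half_const_quad {β : K} {θ : E} (h : QuadExt K β θ) (hK : HalfProp K)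
    {Q : Type} [AddCommGroup Q]
    (A : (PlaceOver ℂ E →₀ ℤ) →+ Q) (hdiv : ∀ F : E, A (div ℂ F) = 0)
    (htwo : ∀ w w' : PlaceOver ℂ E, (2 : ℤ) • A (Finsupp.single w 1) =
      (2 : ℤ) • A (Finsupp.single w' 1)) (x₀ : PlaceOver ℂ E)
    (hx₀ : ∀ x' : PlaceOver ℂ E, restrictPlace K x' = restrictPlace K x₀ →
        A (Finsupp.single x' 1) = A (Finsupp.single x₀ 1)) (w w' : PlaceOver ℂ E) :
    A (Finsupp.single w 1) = A (Finsupp.single w' 1) := by
  obtain ⟨τ, hτ, -⟩ := h.exists_conj
  exact const_of_norm h.finrank_eq τ (h.exists_norm τ hτ) hK A hdiv htwo x₀ hx₀ w w'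

/-- **[HT]** A quadratic extension with a ramified place. -/
theorem halfProp_quad {β : K} {θ : E} (h : QuadExt K β θ) (hK : HalfProp K)
    (v : PlaceOver ℂ K) (hv : Odd (v.1.ord β)) : HalfProp E := by
  classical
  intro Q _ A hdiv htwo w w'
  obtain ⟨x₀, hx₀⟩ := exists_over (E := E) v
  refine half_const_quad h hK A hdiv htwo x₀ ?_ w w'
  intro x' hx'
  rcases pull_two h.finrank_eq x₀ with ⟨h1, h2⟩ | ⟨h1, -⟩
  · have h3 : x' = x₀ := by
      by_contra hne
      have h4 : pull K E (Finsupp.single (restrictPlace K x₀) 1) x' ≠ 0 := by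
        rw [pull_apply, hx', Finsupp.single_eq_same, mul_one]
        exact (ram_pos x').ne'
      rw [h2, Finsupp.single_apply, if_neg (Ne.symm hne)] at h4
      exact h4 rfl
    rw [h3]
  · exfalso
    have h3 := ord_algebraMap (K := K) x₀ β
    rw [hx₀, h1, one_mul, ← h.sq, Place.ord_pow] at h3
    rw [← h3, ← Int.not_even_iff_odd] at hv
    apply hv
    simp

end

/-- A finite extension of a function field in one variable is one. -/
theorem isFF_of_finite (K E : Type) [Field K] [Field E] [Algebra ℂ K] [Algebra ℂ E] [Algebra K E]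
    [IsScalarTower ℂ K E] [IsFF ℂ K] [FiniteDimensional K E] : IsFF ℂ E := by
  haveI := IsFF.fin (k := ℂ) (E := K)
  refine ⟨Algebra.EssFiniteType.comp ℂ K E, ?_⟩
  have h1 := trdeg_add_eq ℂ K (A := E)
  rw [trdeg_eq_zero_iff.2 (inferInstance : Algebra.IsAlgebraic K E), add_zero,
    IsFF.td (k := ℂ) (E := K)] at h1
  exact h1.symm

/-- Adjunction of a square root. -/
theorem exists_sqrt (K : Type) [Field K] [Algebra ℂ K] [IsFF ℂ K] (β : K) (hβ : ¬ IsSquare β) :
    ∃ (E : Type) (_ : Field E) (_ : Algebra ℂ E) (_ : Algebra K E) (_ : IsScalarTower ℂ K E)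
      (_ : IsFF ℂ E) (_ : FiniteDimensional K E) (θ : E), QuadExt K β θ := by
  have hirr : Irreducible (X ^ 2 - C β : K[X]) := by
    rw [Polynomial.Monic.irreducible_iff_roots_eq_zero_of_degree_le_three
    (monic_X_pow_sub_C β two_ne_zero)]
    · rw [Multiset.eq_zero_iff_forall_notMem]
      intro a ha
      rw [mem_roots', IsRoot, eval_sub, eval_pow, eval_X, eval_C] at ha
      apply hβ
      exact ⟨a, by rw [← pow_two]; exact (sub_eq_zero.1 ha.2).symm⟩
    · rw [natDegree_X_pow_sub_C]
    · rw [natDegree_X_pow_sub_C]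
      norm_num
  haveI : Fact (Irreducible (X ^ 2 - C β : K[X])) := ⟨hirr⟩
  let E := AdjoinRoot (X ^ 2 - C β : K[X])
  let θ : E := AdjoinRoot.root _
  have hspan : ∀ x : E, ∃ c d : K, x = algebraMap K E c + algebraMap K E d * θ := by
    intro x
    obtain ⟨F, rfl⟩ := AdjoinRoot.mk_surjective x
    obtain ⟨G, a, b, hF⟩ := exists_quad_rem β F
    refine ⟨a, b, ?_⟩
    rw [hF, map_add, map_add, map_mul, map_mul, AdjoinRoot.mk_self, zero_mul, zero_add, add_comm]
    rfl
  have hsq : θ ^ 2 = algebraMap K E β := by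
    have h1 : AdjoinRoot.mk (X ^ 2 - C β : K[X]) (X ^ 2 - C β) = 0 := AdjoinRoot.mk_self
    rw [map_sub, map_pow] at h1
    exact sub_eq_zero.1 h1
  haveI : FiniteDimensional K E := by
    refine ⟨⟨{1, θ}, ?_⟩⟩
    rw [eq_top_iff]
    intro x _
    obtain ⟨c, d, rfl⟩ := hspan x
    refine Submodule.add_mem _ ?_ ?_
    · have h1 : algebraMap K E c = c • (1 : E) := by
        rw [Algebra.smul_def, mul_one]
      rw [h1]
      exact Submodule.smul_mem _ _ (Submodule.subset_span (by simp))
    · have h1 : algebraMap K E d * θ = d • θ := by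
        rw [Algebra.smul_def]
      rw [h1]
      exact Submodule.smul_mem _ _ (Submodule.subset_span (by simp))
  haveI : IsFF ℂ E := isFF_of_finite K E
  refine ⟨E, inferInstance, inferInstance, inferInstance, inferInstance, inferInstance,
    inferInstance, θ, ⟨hsq, ?_, hspan⟩⟩
  intro c hc
  apply hβ
  refine ⟨c, ?_⟩
  apply (algebraMap K E).injective
  rw [← hsq, ← hc, map_mul]
  ring

end Vale.Agent.P297.H572.Half
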