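import Mathlib.RingTheory.Nullstellensatz
import Mathlib.RingTheory.Ideal.KrullsHeightTheorem
import Mathlib.RingTheory.MvPolynomial.Basic

/-!
Fewer polynomials without constant term than variables have a common zero other than the origin.
-/

namespace Vale.Agent.P297.H572.Half

open MvPolynomial

variable {k σ τ : Type} [Field k] [Fintype σ] [Fintype τ] [DecidableEq σ]

/-- the ideal of the polynomials that vanish after killing the variables in `s` -/
noncomputable def kil (w : σ → k) : Ideal (MvPolynomial σ k) :=
  RingHom.ker (aeval (fun i => C (w i) * X i) : MvPolynomial σ k →ₐ[k]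
    MvPolynomial σ k).toRingHom

instance (w : σ → k) : (kil w).IsPrime := RingHom.ker_isPrime _

theorem mem_kil (w : σ → k) (p : MvPolynomial σ k) :
    p ∈ kil w ↔ aeval (fun i => C (w i) * X i) p = (0 : MvPolynomial σ k) := Iff.rfl

theorem kil_le {w w' : σ → k} (c : σ → k) (h : ∀ i, w' i = c i * w i) :
    kil w ≤ kil w' := by
  intro p hp
  rw [mem_kil] at hp ⊢
  have h1 := congrArg (aeval (fun i => C (c i) * X i) : MvPolynomial σ k →ₐ[k]
    MvPolynomial σ k) hp
  rw [map_zero] at h1
  rw [← h1]
  have h2 : (aeval (fun i => C (w' i) * X i) : MvPolynomial σ k →ₐ[k]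
      MvPolynomial σ k) = (aeval (fun i => C (c i) * X i)).comp
        (aeval (fun i => C (w i) * X i)) := by
    apply MvPolynomial.algHom_ext
    intro i
    simp only [AlgHom.comp_apply, aeval_X, map_mul, algHom_C, h]
    simp only [MvPolynomial.algebraMap_eq]
    ring
  rw [h2]
  rfl

theorem X_mem_kil (w : σ → k) (i : σ) : X i ∈ kil w ↔ w i = 0 := by
  rw [mem_kil, aeval_X]
  constructor
  · intro h
    rcases mul_eq_zero.1 h with h | h
    · exact (C_eq_zero).1 h
    · exact absurd h (X_ne_zero i)
  · intro h
    rw [h, C_0, zero_mul]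

/-- the indicator function of the complement -/
def ind (s : Finset σ) (i : σ) : k := if i ∈ s then 0 else 1

theorem height_kil (s : Finset σ) : (s.card : ℕ∞) ≤ (kil (ind s : σ → k)).height := by
  classical
  induction s using Finset.induction_on with
  | empty => simp
  | insert a s ha ih =>
    rw [Finset.card_insert_of_notMem ha]
    have h2 : kil (ind s : σ → k) < kil (ind (insert a s) : σ → k) := by
      refine lt_of_le_of_ne (kil_le (fun i => if i = a then 0 else 1) (by
        intro i
        unfold ind
        by_cases h : i = a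
        · simp [h]
        · by_cases h' : i ∈ s <;> simp [h, h'])) fun h => ?_
      have h2 : (X a : MvPolynomial σ k) ∈ kil (ind (insert a s) : σ → k) :=
        (X_mem_kil _ _).2 (by simp [ind])
      rw [← h, X_mem_kil] at h2
      simp [ind, ha] at h2
    have k1 := Ideal.height_add_one_le_of_lt_of_isPrime h2
    calc ((s.card + 1 : ℕ) : ℕ∞) = (s.card : ℕ∞) + 1 := by norm_num
      _ ≤ (kil (ind s : σ → k)).height + 1 := by gcongr
      _ ≤ _ := k1

theorem kil_zero : kil (fun _ => (0 : k)) = vanishingIdeal k {(0 : σ → k)} := by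
  ext p
  rw [mem_kil, mem_vanishingIdeal_singleton_iff]
  have h : (aeval (fun i => C ((fun _ => (0 : k)) i) * X i) p : MvPolynomial σ k) =
      C (aeval (0 : σ → k) p) := by
    have h2 : (aeval (fun i => C ((fun _ => (0 : k)) i) * X i) : MvPolynomial σ k →ₐ[k]
        MvPolynomial σ k) = (Algebra.ofId k (MvPolynomial σ k)).comp
          (aeval (0 : σ → k)) := by
      apply MvPolynomial.algHom_ext
      intro i
      simp
    rw [h2]
    rfl
  rw [h, C_eq_zero]

/-- Fewer polynomials without constant term than variables have a common zero other than the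
origin. -/
theorem common_zero [IsAlgClosed k] (hc : Fintype.card τ < Fintype.card σ)
    (f : τ → MvPolynomial σ k) (hf : ∀ i, aeval (0 : σ → k) (f i) = 0) :
    ∃ v : σ → k, v ≠ 0 ∧ ∀ i, aeval v (f i) = 0 := by
  classical
  by_contra hcon
  push Not at hcon
  have h1 : zeroLocus k (Ideal.span ((Finset.univ.image f : Finset (MvPolynomial σ k)) :
      Set (MvPolynomial σ k))) = {(0 : σ → k)} := by
    ext v
    rw [zeroLocus_span, Set.mem_ofPred_eq, Set.mem_singleton_iff]
    constructor
    · intro h
      by_contra hv
      obtain ⟨i, hi⟩ := hcon v hv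
      exact hi (h (f i) (by simp))
    · rintro rfl p hp
      simp only [Finset.coe_image, Finset.coe_univ, Set.image_univ, Set.mem_range] at hp
      obtain ⟨i, rfl⟩ := hp
      exact hf i
  have h2 := vanishingIdeal_zeroLocus_eq_radical (K := k)
    (Ideal.span ((Finset.univ.image f : Finset (MvPolynomial σ k)) : Set (MvPolynomial σ k)))
  rw [h1, ← kil_zero] at h2
  have h3 : kil (fun _ => (0 : k)) ∈
      (Ideal.span ((Finset.univ.image f : Finset (MvPolynomial σ k)) :
        Set (MvPolynomial σ k))).minimalPrimes := by
    refine ⟨⟨inferInstance, ?_⟩, ?_⟩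
    · rw [h2]
      exact Ideal.le_radical
    · rintro q ⟨hq, hle⟩ _
      rw [h2]
      exact (Ideal.radical_mono hle).trans hq.radical.le
  have h4 := Ideal.height_le_card_of_mem_minimalPrimes_span_finset h3
  have h5 : ((Finset.univ.image f).card : ℕ∞) ≤ Fintype.card τ := by
    exact_mod_cast Finset.card_image_le
  have h6 := height_kil (k := k) (Finset.univ : Finset σ)
  have h7 : (ind (Finset.univ : Finset σ) : σ → k) = fun _ => 0 := by
    funext i
    simp [ind]
  rw [h7, Finset.card_univ] at h6
  have h8 := (h6.trans h4).trans h5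
  exact absurd (by exact_mod_cast h8 : Fintype.card σ ≤ Fintype.card τ) (by omega)

end Vale.Agent.P297.H572.Half
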