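import Vale.Agent.P297.H572.Half.Zero

/-!
Quadratic forms over `k[t]` (Tsen).
-/

namespace Vale.Agent.P297.H572.Half

open Polynomial

variable {k σ τ : Type} [Field k] [Fintype σ] [Fintype τ]

/-- Few quadratic forms over `k[t]` in many variables have a nontrivial common zero. -/
theorem quad_zero [IsAlgClosed k] (hc : 2 * Fintype.card τ < Fintype.card σ)
    (c : τ → σ → σ → k[X]) :
    ∃ v : σ → k[X], v ≠ 0 ∧ ∀ m, ∑ i, ∑ j, c m i j * v i * v j = 0 := by
  classical
  obtain ⟨D, hD⟩ : ∃ D : ℕ, ∀ m i j, (c m i j).natDegree ≤ D := by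
    refine ⟨∑ m, ∑ i, ∑ j, (c m i j).natDegree, fun m i j => ?_⟩
    calc (c m i j).natDegree ≤ ∑ j, (c m i j).natDegree :=
          Finset.single_le_sum (f := fun j => (c m i j).natDegree) (fun _ _ => Nat.zero_le _)
            (Finset.mem_univ j)
      _ ≤ ∑ i, ∑ j, (c m i j).natDegree :=
          Finset.single_le_sum (f := fun i => ∑ j, (c m i j).natDegree) (fun _ _ => Nat.zero_le _)
            (Finset.mem_univ i)
      _ ≤ _ := Finset.single_le_sum (f := fun m => ∑ i, ∑ j, (c m i j).natDegree)
            (fun _ _ => Nat.zero_le _) (Finset.mem_univ m)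
  obtain ⟨N, hN⟩ : ∃ N, N = Fintype.card τ * D := ⟨_, rfl⟩
  let G : σ → (MvPolynomial (σ × Fin (N + 1)) k)[X] :=
    fun i => ∑ a : Fin (N + 1), C (MvPolynomial.X (i, a)) * X ^ (a : ℕ)
  let P : τ → (MvPolynomial (σ × Fin (N + 1)) k)[X] :=
    fun m => ∑ i, ∑ j, (c m i j).map MvPolynomial.C * G i * G j
  let V : (σ × Fin (N + 1) → k) → σ → k[X] :=
    fun v i => ∑ a : Fin (N + 1), C (v (i, a)) * X ^ (a : ℕ)
  have hmapG : ∀ (v : σ × Fin (N + 1) → k) (i : σ),
      (G i).map (MvPolynomial.aeval v : _ →ₐ[k] k).toRingHom = V v i := by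
    intro v i
    simp only [G, V, Polynomial.map_sum, Polynomial.map_mul, Polynomial.map_C,
      Polynomial.map_pow, Polynomial.map_X]
    refine Finset.sum_congr rfl fun a _ => ?_
    congr 2
    exact MvPolynomial.aeval_X v (i, a)
  have hmapP : ∀ (v : σ × Fin (N + 1) → k) (m : τ),
      (P m).map (MvPolynomial.aeval v : _ →ₐ[k] k).toRingHom =
        ∑ i, ∑ j, c m i j * V v i * V v j := by
    intro v m
    simp only [P, Polynomial.map_sum, Polynomial.map_mul, hmapG, Polynomial.map_map]
    refine Finset.sum_congr rfl fun i _ => Finset.sum_congr rfl fun j _ => ?_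
    congr 2
    have h1 : ((MvPolynomial.aeval v : MvPolynomial (σ × Fin (N + 1)) k →ₐ[k] k).toRingHom.comp
        MvPolynomial.C) = RingHom.id k := by
      ext x
      simp
    rw [h1, Polynomial.map_id]
  have hcoeff : ∀ (v : σ × Fin (N + 1) → k) (m : τ) (n : ℕ),
      MvPolynomial.aeval v ((P m).coeff n) = (∑ i, ∑ j, c m i j * V v i * V v j).coeff n := by
    intro v m n
    rw [← hmapP, coeff_map]
    rfl
  have hV0 : V 0 = 0 := by
    funext i
    simp [V]
  have hdegV : ∀ v i, (V v i).natDegree ≤ N := by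
    intro v i
    refine natDegree_sum_le_of_forall_le _ _ fun a _ => ?_
    exact (natDegree_C_mul_X_pow_le _ _).trans (Nat.lt_succ_iff.1 a.2)
  obtain ⟨v, hv0, hv⟩ := common_zero (k := k) (σ := σ × Fin (N + 1))
    (τ := τ × Fin (2 * N + D + 1)) (by
      rw [Fintype.card_prod, Fintype.card_prod, Fintype.card_fin, Fintype.card_fin]
      have h1 : 2 * Fintype.card τ + 1 ≤ Fintype.card σ := hc
      calc Fintype.card τ * (2 * N + D + 1) < (2 * Fintype.card τ + 1) * (N + 1) := by
            rw [hN]; nlinarith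
        _ ≤ _ := Nat.mul_le_mul_right _ h1)
    (fun p => (P p.1).coeff (p.2 : ℕ)) (by
      intro p
      rw [hcoeff, hV0]
      simp)
  refine ⟨V v, ?_, ?_⟩
  · intro h0
    apply hv0
    funext p
    obtain ⟨i, a⟩ := p
    have h1 := congrArg (fun q => q.coeff (a : ℕ)) (congrFun h0 i)
    simp only [V, finsetSum_coeff, coeff_C_mul, coeff_X_pow, Pi.zero_apply, coeff_zero] at h1
    rw [Finset.sum_eq_single a] at h1
    · simpa using h1
    · intro b _ hb
      have : (a : ℕ) ≠ (b : ℕ) := fun h => hb (Fin.ext h.symm)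
      simp [this]
    · simp
  · intro m
    ext n
    rw [coeff_zero]
    by_cases hn : n < 2 * N + D + 1
    · have h1 := hv (m, ⟨n, hn⟩)
      rwa [hcoeff] at h1
    · apply coeff_eq_zero_of_natDegree_lt
      refine lt_of_le_of_lt ?_ (not_lt.1 hn |> Nat.lt_of_succ_le)
      refine natDegree_sum_le_of_forall_le _ _ fun i _ =>
        natDegree_sum_le_of_forall_le _ _ fun j _ => ?_
      calc (c m i j * V v i * V v j).natDegree ≤ (c m i j * V v i).natDegree + (V v j).natDegree :=
            natDegree_mul_le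
        _ ≤ (c m i j).natDegree + (V v i).natDegree + (V v j).natDegree := by
            gcongr
            exact natDegree_mul_le
        _ ≤ D + N + N := by
            gcongr
            · exact hD m i j
            · exact hdegV v i
            · exact hdegV v j
        _ = 2 * N + D := by ring

end Vale.Agent.P297.H572.Half
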