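import Vale.Agent.P297.H572.Half.Quad
import Vale.Agent.P297.Bdl.B1

/-!
Tsen's theorem for diagonal conics over a function field in one variable.
-/

set_option linter.unusedSectionVars false
set_option linter.style.haveILetI false

open IntermediateField Polynomial

namespace Vale.Agent.P297.H572.Half

open Vale.Agent.P297

variable {E : Type} [Field E] [Algebra ℂ E]

theorem exists_den {t : E} {ι : Type} [Fintype ι] (x : ι → ℂ⟮t⟯) :
    ∃ (D : ℂ[X]) (p : ι → ℂ[X]), aeval t D ≠ 0 ∧ ∀ i, (x i : E) * aeval t D = aeval t (p i) := by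
  classical
  have h : ∀ i, ∃ p q : ℂ[X], aeval t q ≠ 0 ∧ (x i : E) * aeval t q = aeval t p := by
    intro i
    obtain ⟨r, s, hrs⟩ := (IntermediateField.mem_adjoin_simple_iff ℂ (x i : E)).1 (x i).2
    by_cases hs : aeval t s = 0
    · refine ⟨0, 1, by simp, ?_⟩
      rw [hrs, hs]
      simp
    · refine ⟨r, s, hs, ?_⟩
      rw [hrs, div_mul_cancel₀ _ hs]
  choose p q hq hpq using h
  refine ⟨∏ i, q i, fun i => p i * ∏ j ∈ Finset.univ.erase i, q j, ?_, fun i => ?_⟩
  · rw [map_prod]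
    exact Finset.prod_ne_zero_iff.2 fun i _ => hq i
  · rw [← Finset.mul_prod_erase Finset.univ q (Finset.mem_univ i), map_mul, map_mul, ← mul_assoc,
      hpq]

/-- **Tsen.** A diagonal ternary quadratic form over a function field in one variable has a
nontrivial zero. -/
theorem tsen [IsFF ℂ E] (w : Fin 3 → E) :
    ∃ x : Fin 3 → E, x ≠ 0 ∧ ∑ s, w s * x s ^ 2 = 0 := by
  classical
  obtain ⟨t, ht⟩ := IsFF.exists_transcendental (k := ℂ) (E := E)
  haveI : FiniteDimensional ℂ⟮t⟯ E := IsFF.finiteDimensional ht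
  let e := Module.finBasis ℂ⟮t⟯ E
  set d := Module.finrank ℂ⟮t⟯ E with hd
  have hd0 : 0 < d := Module.finrank_pos
  obtain ⟨D, p, hD, hp⟩ := exists_den (t := t)
    (ι := Fin d × Fin 3 × Fin d × Fin d)
    (fun i => e.repr (w i.2.1 * e i.2.2.1 * e i.2.2.2) i.1)
  obtain ⟨v, hv0, hv⟩ := quad_zero (k := ℂ) (σ := Fin 3 × Fin d) (τ := Fin d)
    (by simp only [Fintype.card_prod, Fintype.card_fin]; omega)
    (fun m i j => if i.1 = j.1 then p (m, i.1, i.2, j.2) else 0)
  have htinj : ∀ q : ℂ[X], aeval t q = 0 → q = 0 := by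
    intro q hq
    by_contra hne
    exact ht ⟨q, hne, hq⟩
  let g : ℂ⟮t⟯ := AdjoinSimple.gen ℂ t
  have hg : ∀ q : ℂ[X], ((aeval g q : ℂ⟮t⟯) : E) = aeval t q := by
    intro q
    have := aeval_algebraMap_apply E g q
    rw [AdjoinSimple.algebraMap_gen] at this
    exact this.symm
  let x : Fin 3 → E := fun s => ∑ a, (aeval g (v (s, a)) : ℂ⟮t⟯) • e a
  have hx0 : x ≠ 0 := by
    intro h0
    apply hv0
    funext i
    obtain ⟨s, a⟩ := i
    have h1 : ∑ a, (aeval g (v (s, a)) : ℂ⟮t⟯) • e a = 0 := congrFun h0 s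
    have h2 := Fintype.linearIndependent_iff.1 e.linearIndependent _ h1 a
    apply htinj
    rw [← hg, h2]
    rfl
  refine ⟨x, hx0, ?_⟩
  have h1 : ∀ m, e.repr (∑ s, w s * x s ^ 2) m = 0 := by
    intro m
    have h2 : ∑ s, w s * x s ^ 2 = ∑ s, ∑ a, ∑ b,
        ((aeval g (v (s, a)) : ℂ⟮t⟯) * (aeval g (v (s, b)) : ℂ⟮t⟯)) •
          (w s * e a * e b) := by
      refine Finset.sum_congr rfl fun s _ => ?_
      change w s * (∑ a, (aeval g (v (s, a)) : ℂ⟮t⟯) • e a) ^ 2 = _
      rw [pow_two, Finset.sum_mul_sum, Finset.mul_sum]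
      refine Finset.sum_congr rfl fun a _ => ?_
      rw [Finset.mul_sum]
      refine Finset.sum_congr rfl fun b _ => ?_
      rw [smul_mul_smul_comm, mul_smul_comm, mul_assoc]
    rw [h2, map_sum, Finsupp.coe_finsetSum, Finset.sum_apply]
    simp only [map_sum, map_smul, Finsupp.coe_finsetSum, Finset.sum_apply, Finsupp.coe_smul,
      Pi.smul_apply, smul_eq_mul]
    apply Subtype.ext
    apply mul_right_cancel₀ hD
    change ((∑ s, ∑ a, ∑ b, (aeval g (v (s, a)) : ℂ⟮t⟯) * (aeval g (v (s, b)) : ℂ⟮t⟯) *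
      e.repr (w s * e a * e b) m : ℂ⟮t⟯) : E) * aeval t D = 0 * aeval t D
    rw [zero_mul]
    have h3 := congrArg (aeval t) (hv m)
    rw [map_zero] at h3
    rw [← h3]
    simp only [map_sum, map_mul, Fintype.sum_prod_type]
    push_cast
    rw [Finset.sum_mul]
    refine Finset.sum_congr rfl fun s _ => ?_
    rw [Finset.sum_mul]
    refine Finset.sum_congr rfl fun a _ => ?_
    rw [Finset.sum_mul, Finset.sum_eq_single s]
    · refine Finset.sum_congr rfl fun b _ => ?_
      rw [if_pos rfl, ← hp (m, s, a, b), hg, hg]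
      ring
    · intro s' _ hs'
      simp [Ne.symm hs']
    · simp
  apply e.repr.injective
  rw [map_zero]
  ext m
  rw [h1]
  rfl

end Vale.Agent.P297.H572.Half
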